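import Vale.Agent.P318.K23

namespace Vale.Agent.Results.P318.ExactIffLeFour

open Vale.Agent.P318

/-- The integrality gap `g(n)` of the Goemans-Linial relaxation of uniform sparsest cut equals `1`
exactly when `n ≤ 4`; moreover `g(5) ≥ 10/9`, witnessed by capacities on five vertices
(twice the complete bipartite graph `K_{2,3}`) with `Φ = 1` and `GL = 9/10` exactly. -/
theorem result :
    (∀ n : ℕ, 2 ≤ n → (gap n = 1 ↔ n ≤ 4)) ∧
    ENNReal.ofReal (10 / 9) ≤ gap 5 ∧
    (∃ c : Fin 5 → Fin 5 → ℝ, IsCap c ∧ phiVal c = 1 ∧ glVal c = 9 / 10) :=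
  ⟨fun _ hn => gap_eq_one_iff hn, ten_ninths_le_gap_five, k23, k23_isCap, phiVal_k23, glVal_k23⟩

end Vale.Agent.Results.P318.ExactIffLeFour
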